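import Mathlib

/-!
The switch chain of a degree vector on labelled simple graphs, as a lazy chain on a graph.
-/

namespace Vale.Agent.H90

open Finset

/-- Transition matrix of the lazy chain on a finite graph `adj`: from `x` move to each
neighbour with probability `ρ`, otherwise stay. -/
noncomputable def lazyChain {Ω : Type*} [Fintype Ω] [DecidableEq Ω]
    (adj : Ω → Ω → Prop) [DecidableRel adj] (ρ : ℝ) : Matrix Ω Ω ℝ :=
  fun x y => if x = y then 1 - ρ * ((univ.filter (fun z => adj x z)).card : ℝ)
    else if adj x y then ρ else 0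

/-- `G` is a realization of the degree vector `d`. -/
def Realizes {n : ℕ} (d : Fin n → ℕ) (G : SimpleGraph (Fin n)) : Prop :=
  ∀ v, (G.neighborSet v).ncard = d v

/-- The set of realizations of `d`, as a type. -/
def Omega {n : ℕ} (d : Fin n → ℕ) : Type := {G : SimpleGraph (Fin n) // Realizes d G}

noncomputable instance {n : ℕ} (d : Fin n → ℕ) : Fintype (Omega d) :=
  Fintype.ofFinite {G : SimpleGraph (Fin n) // Realizes d G}

noncomputable instance {n : ℕ} (d : Fin n → ℕ) : DecidableEq (Omega d) :=
  Classical.decEq _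

/-- `G'` arises from `G` by a switch: two disjoint edges `ab`, `ce` of `G` are replaced by
the perfect matching `ac`, `be` of their endpoints, both of whose edges are absent in `G`. -/
def IsSwitch {n : ℕ} (G G' : SimpleGraph (Fin n)) : Prop :=
  ∃ a b c e : Fin n, a ≠ b ∧ a ≠ c ∧ a ≠ e ∧ b ≠ c ∧ b ≠ e ∧ c ≠ e ∧
    G.Adj a b ∧ G.Adj c e ∧ ¬ G.Adj a c ∧ ¬ G.Adj b e ∧
    G'.edgeSet = (G.edgeSet \ {s(a, b), s(c, e)}) ∪ {s(a, c), s(b, e)}

/-- Switch adjacency on realizations. -/
def SwitchAdj {n : ℕ} (d : Fin n → ℕ) (G G' : Omega d) : Prop := IsSwitch G.1 G'.1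

noncomputable instance {n : ℕ} (d : Fin n → ℕ) : DecidableRel (SwitchAdj d) :=
  Classical.decRel _

/-- The switch chain of the problem: each of the switches available at `G` is performed with
probability `1 / (12 * choose n 4)` (probability `1/2` to move, a uniform 4-set, a uniform
ordered pair of distinct perfect matchings of it), otherwise the chain stays put. -/
noncomputable def switchChain {n : ℕ} (d : Fin n → ℕ) : Matrix (Omega d) (Omega d) ℝ :=
  lazyChain (SwitchAdj d) (1 / (12 * (n.choose 4 : ℝ)))

end Vale.Agent.H90
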