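import Vale.Agent.H40.KTV.GDefs

/-!
Graph model of the switch chain: the product structure of the two pair fibres of disjoint
vertex pairs `{u, v}`, `{w, z}` on the states whose block `{u, v} x {w, z}` does not contain
exactly two edges (square completion and trivial intersection).
-/

namespace Vale.Agent.H90

open Finset SimpleGraph
open scoped Classical
open Vale.Agent.H40.KTV

variable {V : Type} [Fintype V]

set_option linter.unusedSectionVars false
set_option linter.unusedSimpArgs false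
set_option linter.unusedVariables false

/-- indicator of a proposition as a natural number -/
noncomputable def ind (p : Prop) : ℕ := if p then 1 else 0

theorem ind_le_one (p : Prop) : ind p ≤ 1 := by
  unfold ind; split_ifs <;> omega

theorem ind_congr {p q : Prop} (h : p ↔ q) : ind p = ind q := by
  rw [propext h]

theorem ind_of_not {p : Prop} (h : ¬ p) : ind p = 0 := by
  unfold ind; rw [if_neg h]

theorem ind_of {p : Prop} (h : p) : ind p = 1 := by
  unfold ind; rw [if_pos h]

theorem degree_eq_sum_ind (G : SimpleGraph V) (a : V) : G.degree a = ∑ b, ind (G.Adj a b) := by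
  unfold ind
  rw [← card_neighborFinset_eq_degree, neighborFinset_eq_filter, Finset.card_filter]

/-- splitting a sum over the vertices at four distinct vertices -/
theorem sum_split4 {u v w z : V} (h : Dist4 u v w z) (F : V → ℕ) :
    ∑ b, F b = F u + F v + F w + F z
      + ∑ b ∈ univ.filter (fun b => b ≠ u ∧ b ≠ v ∧ b ≠ w ∧ b ≠ z), F b := by
  obtain ⟨huv, huw, huz, hvw, hvz, hwz⟩ := h
  have e : univ.filter (fun b => b ≠ u ∧ b ≠ v ∧ b ≠ w ∧ b ≠ z)
      = (((univ.erase u).erase v).erase w).erase z := by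
    ext b
    simp only [mem_filter, mem_univ, true_and, mem_erase, and_true]
    tauto
  have h1 := Finset.add_sum_erase univ F (mem_univ u)
  have h2 := Finset.add_sum_erase (univ.erase u) F
    (show v ∈ univ.erase u by simp [huv.symm])
  have h3 := Finset.add_sum_erase ((univ.erase u).erase v) F
    (show w ∈ (univ.erase u).erase v by simp [huw.symm, hvw.symm])
  have h4 := Finset.add_sum_erase (((univ.erase u).erase v).erase w) F
    (show z ∈ ((univ.erase u).erase v).erase w by simp [huz.symm, hvz.symm, hwz.symm])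
  rw [e]
  omega

/-- the part of the degree of `a` coming from the vertices outside `u, v, w, z` -/
noncomputable def restDeg (u v w z : V) (G : SimpleGraph V) (a : V) : ℕ :=
  ∑ b ∈ univ.filter (fun b => b ≠ u ∧ b ≠ v ∧ b ≠ w ∧ b ≠ z), ind (G.Adj a b)

theorem degree_split {u v w z : V} (h : Dist4 u v w z) (G : SimpleGraph V) (a : V) :
    G.degree a = ind (G.Adj a u) + ind (G.Adj a v) + ind (G.Adj a w) + ind (G.Adj a z)
      + restDeg u v w z G a := by
  rw [degree_eq_sum_ind, sum_split4 h]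
  rfl

theorem restDeg_congr {u v w z : V} {G H : SimpleGraph V} {a : V}
    (h : ∀ b, b ≠ u → b ≠ v → b ≠ w → b ≠ z → (G.Adj a b ↔ H.Adj a b)) :
    restDeg u v w z G a = restDeg u v w z H a := by
  unfold restDeg
  refine Finset.sum_congr rfl (fun b hb => ?_)
  simp only [mem_filter, mem_univ, true_and] at hb
  exact ind_congr (h b hb.1 hb.2.1 hb.2.2.1 hb.2.2.2)

theorem RP_adj {u v : V} {G H : SimpleGraph V} (h : RP u v G H) {a b : V}
    (hau : a ≠ u) (hav : a ≠ v) (hbu : b ≠ u) (hbv : b ≠ v) : G.Adj a b ↔ H.Adj a b := by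
  have h2 := h.2 s(a, b) (by
    show ¬ (u ∈ s(a, b) ∨ v ∈ s(a, b))
    rw [Sym2.mem_iff, Sym2.mem_iff]
    rintro ((h1 | h1) | (h1 | h1))
    · exact hau h1.symm
    · exact hbu h1.symm
    · exact hav h1.symm
    · exact hbv h1.symm)
  rwa [mem_edgeSet, mem_edgeSet] at h2

theorem RP_of {u v : V} {G H : SimpleGraph V} (hd : ∀ a, G.degree a = H.degree a)
    (h : ∀ a b, a ≠ u → a ≠ v → b ≠ u → b ≠ v → (G.Adj a b ↔ H.Adj a b)) : RP u v G H := by
  refine ⟨hd, fun e he => ?_⟩
  induction e using Sym2.ind with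
  | _ a b =>
    have he' : ¬ (u ∈ s(a, b) ∨ v ∈ s(a, b)) := he
    rw [Sym2.mem_iff, Sym2.mem_iff, not_or, not_or, not_or] at he'
    rw [mem_edgeSet, mem_edgeSet]
    exact h a b (fun h1 => he'.1.1 h1.symm) (fun h1 => he'.2.1 h1.symm)
      (fun h1 => he'.1.2 h1.symm) (fun h1 => he'.2.2 h1.symm)

/-- number of edges of `G` inside the block `{u, v} x {w, z}` -/
noncomputable def blockSum (u v w z : V) (G : SimpleGraph V) : ℕ :=
  (if G.Adj u w then 1 else 0) + (if G.Adj u z then 1 else 0)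
    + (if G.Adj v w then 1 else 0) + (if G.Adj v z then 1 else 0)

theorem blockSum_eq (u v w z : V) (G : SimpleGraph V) :
    blockSum u v w z G = ind (G.Adj u w) + ind (G.Adj u z) + ind (G.Adj v w) + ind (G.Adj v z) :=
  rfl

theorem sum_split2 {u v : V} (huv : u ≠ v) (F : V → ℕ) :
    ∑ b, F b = F u + F v + ∑ b ∈ univ.filter (fun b => b ≠ u ∧ b ≠ v), F b := by
  have e : univ.filter (fun b => b ≠ u ∧ b ≠ v) = (univ.erase u).erase v := by
    ext b
    simp only [mem_filter, mem_univ, true_and, mem_erase, and_true]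
    tauto
  have h1 := Finset.add_sum_erase univ F (mem_univ u)
  have h2 := Finset.add_sum_erase (univ.erase u) F
    (show v ∈ univ.erase u by simp [huv.symm])
  rw [e]
  omega

/-- In a pair fibre of `{u, v}` the number of neighbours among `u, v` of any other vertex
is constant. -/
theorem RP_pair_sum {u v : V} (huv : u ≠ v) {x y : SimpleGraph V} (hxy : RP u v x y) {c : V}
    (hcu : c ≠ u) (hcv : c ≠ v) :
    ind (x.Adj c u) + ind (x.Adj c v) = ind (y.Adj c u) + ind (y.Adj c v) := by
  have hd := hxy.1 c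
  rw [degree_eq_sum_ind, degree_eq_sum_ind, sum_split2 huv, sum_split2 huv] at hd
  have hr : ∑ b ∈ univ.filter (fun b => b ≠ u ∧ b ≠ v), ind (x.Adj c b)
      = ∑ b ∈ univ.filter (fun b => b ≠ u ∧ b ≠ v), ind (y.Adj c b) := by
    refine Finset.sum_congr rfl (fun b hb => ?_)
    simp only [mem_filter, mem_univ, true_and] at hb
    exact ind_congr (RP_adj hxy hcu hcv hb.1 hb.2)
  omega

theorem ind_adj_comm (G : SimpleGraph V) (a b : V) : ind (G.Adj a b) = ind (G.Adj b a) :=
  ind_congr (G.adj_comm a b)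

theorem blockSum_RP {u v w z : V} (h : Dist4 u v w z) {x y : SimpleGraph V}
    (hxy : RP u v x y) : blockSum u v w z x = blockSum u v w z y := by
  obtain ⟨huv, huw, huz, hvw, hvz, hwz⟩ := h
  have h1 := RP_pair_sum huv hxy huw.symm hvw.symm
  have h2 := RP_pair_sum huv hxy huz.symm hvz.symm
  rw [blockSum_eq, blockSum_eq, ind_adj_comm x u w, ind_adj_comm x u z, ind_adj_comm x v w,
    ind_adj_comm x v z, ind_adj_comm y u w, ind_adj_comm y u z, ind_adj_comm y v w,
    ind_adj_comm y v z]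
  omega

theorem blockSum_RP' {u v w z : V} (h : Dist4 u v w z) {x y : SimpleGraph V}
    (hxy : RP w z x y) : blockSum u v w z x = blockSum u v w z y := by
  obtain ⟨huv, huw, huz, hvw, hvz, hwz⟩ := h
  have h1 := RP_pair_sum hwz hxy huw huz
  have h2 := RP_pair_sum hwz hxy hvw hvz
  rw [blockSum_eq, blockSum_eq]
  omega

/-- Arithmetic of a 2 x 2 block: given row sums from one 0/1 block and column sums from
another block with the same total, different from two, the threshold rule produces a block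
with these row and column sums. -/
theorem block_arith (a b c d e f g h : ℕ) (ha : a ≤ 1) (hb : b ≤ 1) (hc : c ≤ 1) (hd : d ≤ 1)
    (he : e ≤ 1) (hf : f ≤ 1) (hg : g ≤ 1) (hh : h ≤ 1)
    (hs : a + b + c + d = e + f + g + h) (h2 : a + b + c + d ≠ 2) :
    ind (a + b + c + d + 3 ≤ 2 * (a + b + (e + g))) + ind (a + b + c + d + 3 ≤ 2 * (a + b + (f + h)))
        = a + b ∧
    ind (a + b + c + d + 3 ≤ 2 * (c + d + (e + g))) + ind (a + b + c + d + 3 ≤ 2 * (c + d + (f + h)))
        = c + d ∧
    ind (a + b + c + d + 3 ≤ 2 * (a + b + (e + g))) + ind (a + b + c + d + 3 ≤ 2 * (c + d + (e + g)))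
        = e + g ∧
    ind (a + b + c + d + 3 ≤ 2 * (a + b + (f + h))) + ind (a + b + c + d + 3 ≤ 2 * (c + d + (f + h)))
        = f + h := by
  unfold ind
  refine ⟨?_, ?_, ?_, ?_⟩ <;> split_ifs <;> omega

/-- A 0/1 block with total different from two is determined by its row and column sums. -/
theorem block_unique (a b c d e f g h : ℕ) (ha : a ≤ 1) (hb : b ≤ 1) (hc : c ≤ 1) (hd : d ≤ 1)
    (he : e ≤ 1) (hf : f ≤ 1) (hg : g ≤ 1) (hh : h ≤ 1)
    (hr1 : a + b = e + f) (hr2 : c + d = g + h) (hc1 : a + c = e + g) (hc2 : b + d = f + h)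
    (h2 : a + b + c + d ≠ 2) : a = e ∧ b = f ∧ c = g ∧ d = h := by
  omega

/-- the relation generating the pasted graph: prescribed block, the rest of the stars of
`u, v` from `x`, everything else from `t` -/
def pasteRel (u v w z : V) (x t : SimpleGraph V) (P1 P2 P3 P4 : Prop) (a b : V) : Prop :=
  (a = u ∧ b = w ∧ P1) ∨ (a = u ∧ b = z ∧ P2) ∨ (a = v ∧ b = w ∧ P3) ∨ (a = v ∧ b = z ∧ P4) ∨
    ((a = u ∨ a = v) ∧ b ≠ w ∧ b ≠ z ∧ x.Adj a b) ∨
    (a ≠ u ∧ a ≠ v ∧ b ≠ u ∧ b ≠ v ∧ t.Adj a b)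

/-- the pasted graph -/
def pasteG (u v w z : V) (x t : SimpleGraph V) (P1 P2 P3 P4 : Prop) : SimpleGraph V :=
  SimpleGraph.fromRel (pasteRel u v w z x t P1 P2 P3 P4)

section paste

variable {u v w z : V} (h : Dist4 u v w z) (x t : SimpleGraph V) (P1 P2 P3 P4 : Prop)

include h

theorem pasteG_uw : (pasteG u v w z x t P1 P2 P3 P4).Adj u w ↔ P1 := by
  obtain ⟨huv, huw, huz, hvw, hvz, hwz⟩ := h
  simp [pasteG, fromRel_adj, pasteRel, huv, huw, huz, hvw, hvz, hwz, huv.symm, huw.symm,
    huz.symm, hvw.symm, hvz.symm, hwz.symm]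

theorem pasteG_uz : (pasteG u v w z x t P1 P2 P3 P4).Adj u z ↔ P2 := by
  obtain ⟨huv, huw, huz, hvw, hvz, hwz⟩ := h
  simp [pasteG, fromRel_adj, pasteRel, huv, huw, huz, hvw, hvz, hwz, huv.symm, huw.symm,
    huz.symm, hvw.symm, hvz.symm, hwz.symm]

theorem pasteG_vw : (pasteG u v w z x t P1 P2 P3 P4).Adj v w ↔ P3 := by
  obtain ⟨huv, huw, huz, hvw, hvz, hwz⟩ := h
  simp [pasteG, fromRel_adj, pasteRel, huv, huw, huz, hvw, hvz, hwz, huv.symm, huw.symm,
    huz.symm, hvw.symm, hvz.symm, hwz.symm]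

theorem pasteG_vz : (pasteG u v w z x t P1 P2 P3 P4).Adj v z ↔ P4 := by
  obtain ⟨huv, huw, huz, hvw, hvz, hwz⟩ := h
  simp [pasteG, fromRel_adj, pasteRel, huv, huw, huz, hvw, hvz, hwz, huv.symm, huw.symm,
    huz.symm, hvw.symm, hvz.symm, hwz.symm]

theorem pasteG_u (b : V) (hbw : b ≠ w) (hbz : b ≠ z) :
    (pasteG u v w z x t P1 P2 P3 P4).Adj u b ↔ x.Adj u b := by
  obtain ⟨huv, huw, huz, hvw, hvz, hwz⟩ := h
  simp [pasteG, fromRel_adj, pasteRel, huv, huw, huz, hvw, hvz, hwz, huv.symm, huw.symm,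
    huz.symm, hvw.symm, hvz.symm, hwz.symm, hbw, hbz]
  constructor
  · rintro ⟨_, h1 | ⟨_, h1⟩⟩
    · exact h1
    · exact h1.symm
  · intro h1
    exact ⟨x.ne_of_adj h1, Or.inl h1⟩

theorem pasteG_v (b : V) (hbw : b ≠ w) (hbz : b ≠ z) :
    (pasteG u v w z x t P1 P2 P3 P4).Adj v b ↔ x.Adj v b := by
  obtain ⟨huv, huw, huz, hvw, hvz, hwz⟩ := h
  simp [pasteG, fromRel_adj, pasteRel, huv, huw, huz, hvw, hvz, hwz, huv.symm, huw.symm,
    huz.symm, hvw.symm, hvz.symm, hwz.symm, hbw, hbz]
  constructor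
  · rintro ⟨_, h1 | ⟨_, h1⟩⟩
    · exact h1
    · exact h1.symm
  · intro h1
    exact ⟨x.ne_of_adj h1, Or.inl h1⟩

theorem pasteG_off (a b : V) (hau : a ≠ u) (hav : a ≠ v) (hbu : b ≠ u) (hbv : b ≠ v) :
    (pasteG u v w z x t P1 P2 P3 P4).Adj a b ↔ t.Adj a b := by
  obtain ⟨huv, huw, huz, hvw, hvz, hwz⟩ := h
  simp [pasteG, fromRel_adj, pasteRel, huv, huw, huz, hvw, hvz, hwz, huv.symm, huw.symm,
    huz.symm, hvw.symm, hvz.symm, hwz.symm, hau, hav, hbu, hbv]
  constructor
  · rintro ⟨_, h1 | h1⟩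
    · exact h1
    · exact h1.symm
  · intro h1
    exact ⟨t.ne_of_adj h1, Or.inl h1⟩

end paste

theorem ind_adj_self (G : SimpleGraph V) (a : V) : ind (G.Adj a a) = 0 :=
  ind_of_not (G.loopless.irrefl a)

/-- Square completion on the states whose block does not contain exactly two edges. -/
theorem odd_square {u v w z : V} (h : Dist4 u v w z) {x y t : SimpleGraph V}
    (hxy : RP u v x y) (hyt : RP w z y t) (hs : blockSum u v w z x ≠ 2) :
    ∃ g, RP w z x g ∧ RP u v g t := by
  have hD := h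
  obtain ⟨huv, huw, huz, hvw, hvz, hwz⟩ := h
  have hsum : blockSum u v w z x = blockSum u v w z t :=
    (blockSum_RP hD hxy).trans (blockSum_RP' hD hyt)
  rw [blockSum_eq] at hs
  rw [blockSum_eq, blockSum_eq] at hsum
  set a := ind (x.Adj u w) with ha
  set b := ind (x.Adj u z) with hb
  set c := ind (x.Adj v w) with hc
  set d := ind (x.Adj v z) with hd
  set e := ind (t.Adj u w) with he
  set f := ind (t.Adj u z) with hf
  set g' := ind (t.Adj v w) with hg
  set h' := ind (t.Adj v z) with hh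
  obtain ⟨R1, R2, C1, C2⟩ := block_arith a b c d e f g' h' (ind_le_one _) (ind_le_one _)
    (ind_le_one _) (ind_le_one _) (ind_le_one _) (ind_le_one _) (ind_le_one _) (ind_le_one _)
    hsum hs
  set P1 : Prop := a + b + c + d + 3 ≤ 2 * (a + b + (e + g')) with hP1
  set P2 : Prop := a + b + c + d + 3 ≤ 2 * (a + b + (f + h')) with hP2
  set P3 : Prop := a + b + c + d + 3 ≤ 2 * (c + d + (e + g')) with hP3
  set P4 : Prop := a + b + c + d + 3 ≤ 2 * (c + d + (f + h')) with hP4
  set g := pasteG u v w z x t P1 P2 P3 P4 with hgdef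
  have guw : g.Adj u w ↔ P1 := pasteG_uw hD x t P1 P2 P3 P4
  have guz : g.Adj u z ↔ P2 := pasteG_uz hD x t P1 P2 P3 P4
  have gvw : g.Adj v w ↔ P3 := pasteG_vw hD x t P1 P2 P3 P4
  have gvz : g.Adj v z ↔ P4 := pasteG_vz hD x t P1 P2 P3 P4
  have gu : ∀ b', b' ≠ w → b' ≠ z → (g.Adj u b' ↔ x.Adj u b') :=
    fun b' h1 h2 => pasteG_u hD x t P1 P2 P3 P4 b' h1 h2
  have gv : ∀ b', b' ≠ w → b' ≠ z → (g.Adj v b' ↔ x.Adj v b') :=
    fun b' h1 h2 => pasteG_v hD x t P1 P2 P3 P4 b' h1 h2
  have goff : ∀ a' b', a' ≠ u → a' ≠ v → b' ≠ u → b' ≠ v → (g.Adj a' b' ↔ t.Adj a' b') :=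
    fun a' b' h1 h2 h3 h4 => pasteG_off hD x t P1 P2 P3 P4 a' b' h1 h2 h3 h4
  -- agreement of `x` and `g` off the stars of `w, z`
  have hA : ∀ a' b', a' ≠ w → a' ≠ z → b' ≠ w → b' ≠ z → (x.Adj a' b' ↔ g.Adj a' b') := by
    intro a' b' haw haz hbw hbz
    by_cases hau : a' = u
    · rw [hau]; exact (gu b' hbw hbz).symm
    by_cases hav : a' = v
    · rw [hav]; exact (gv b' hbw hbz).symm
    by_cases hbu : b' = u
    · rw [hbu, x.adj_comm, g.adj_comm]; exact (gu a' haw haz).symm
    by_cases hbv : b' = v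
    · rw [hbv, x.adj_comm, g.adj_comm]; exact (gv a' haw haz).symm
    rw [goff a' b' hau hav hbu hbv, RP_adj hxy hau hav hbu hbv, RP_adj hyt haw haz hbw hbz]
  -- degrees
  have hdeg : ∀ a', g.degree a' = x.degree a' := by
    intro a'
    have hxy1 := hxy.1 a'
    have hyt1 := hyt.1 a'
    rw [degree_split hD g a', degree_split hD x a']
    rw [degree_split hD x a', degree_split hD y a'] at hxy1
    rw [degree_split hD y a', degree_split hD t a'] at hyt1
    by_cases hau : a' = u
    · subst hau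
      have e1 : ind (g.Adj a' v) = ind (x.Adj a' v) := ind_congr (gu v hvw hvz)
      have e2 : ind (g.Adj a' w) = ind P1 := ind_congr guw
      have e3 : ind (g.Adj a' z) = ind P2 := ind_congr guz
      have e4 : restDeg a' v w z g a' = restDeg a' v w z x a' :=
        restDeg_congr (fun b' _ _ h3 h4 => gu b' h3 h4)
      rw [e1, e2, e3, e4, ind_adj_self, ind_adj_self]
      omega
    by_cases hav : a' = v
    · subst hav
      have e1 : ind (g.Adj a' u) = ind (x.Adj a' u) := ind_congr (gv u huw huz)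
      have e2 : ind (g.Adj a' w) = ind P3 := ind_congr gvw
      have e3 : ind (g.Adj a' z) = ind P4 := ind_congr gvz
      have e4 : restDeg u a' w z g a' = restDeg u a' w z x a' :=
        restDeg_congr (fun b' _ _ h3 h4 => gv b' h3 h4)
      rw [e1, e2, e3, e4, ind_adj_self, ind_adj_self]
      omega
    by_cases haw : a' = w
    · subst haw
      have e1 : ind (g.Adj a' u) = ind P1 := by rw [ind_adj_comm]; exact ind_congr guw
      have e2 : ind (g.Adj a' v) = ind P3 := by rw [ind_adj_comm]; exact ind_congr gvw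
      have e3 : ind (g.Adj a' z) = ind (t.Adj a' z) := ind_congr (goff a' z hau hav huz.symm hvz.symm)
      have e4 : restDeg u v a' z g a' = restDeg u v a' z t a' :=
        restDeg_congr (fun b' h1 h2 _ _ => goff a' b' hau hav h1 h2)
      have e5 : ind (t.Adj a' u) = e := ind_adj_comm t a' u
      have e6 : ind (t.Adj a' v) = g' := ind_adj_comm t a' v
      rw [e5, e6, ind_adj_self, ind_adj_self] at hyt1
      rw [ind_adj_self, ind_adj_self] at hxy1
      rw [e1, e2, e3, e4, ind_adj_self, ind_adj_self]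
      omega
    by_cases haz : a' = z
    · subst haz
      have e1 : ind (g.Adj a' u) = ind P2 := by rw [ind_adj_comm]; exact ind_congr guz
      have e2 : ind (g.Adj a' v) = ind P4 := by rw [ind_adj_comm]; exact ind_congr gvz
      have e3 : ind (g.Adj a' w) = ind (t.Adj a' w) := ind_congr (goff a' w hau hav huw.symm hvw.symm)
      have e4 : restDeg u v w a' g a' = restDeg u v w a' t a' :=
        restDeg_congr (fun b' h1 h2 _ _ => goff a' b' hau hav h1 h2)
      have e5 : ind (t.Adj a' u) = f := ind_adj_comm t a' u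
      have e6 : ind (t.Adj a' v) = h' := ind_adj_comm t a' v
      rw [e5, e6, ind_adj_self, ind_adj_self] at hyt1
      rw [ind_adj_self, ind_adj_self] at hxy1
      rw [e1, e2, e3, e4, ind_adj_self, ind_adj_self]
      omega
    · have e1 : ind (g.Adj a' u) = ind (x.Adj a' u) := by
        rw [ind_adj_comm g, ind_adj_comm x]; exact ind_congr (gu a' haw haz)
      have e2 : ind (g.Adj a' v) = ind (x.Adj a' v) := by
        rw [ind_adj_comm g, ind_adj_comm x]; exact ind_congr (gv a' haw haz)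
      have e3 : ind (g.Adj a' w) = ind (t.Adj a' w) :=
        ind_congr (goff a' w hau hav huw.symm hvw.symm)
      have e4 : ind (g.Adj a' z) = ind (t.Adj a' z) :=
        ind_congr (goff a' z hau hav huz.symm hvz.symm)
      have e5 : restDeg u v w z g a' = restDeg u v w z t a' :=
        restDeg_congr (fun b' h1 h2 _ _ => goff a' b' hau hav h1 h2)
      have f1 : ind (x.Adj a' w) = ind (y.Adj a' w) :=
        ind_congr (RP_adj hxy hau hav huw.symm hvw.symm)
      have f2 : ind (x.Adj a' z) = ind (y.Adj a' z) :=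
        ind_congr (RP_adj hxy hau hav huz.symm hvz.symm)
      have f3 : restDeg u v w z x a' = restDeg u v w z y a' :=
        restDeg_congr (fun b' h1 h2 _ _ => RP_adj hxy hau hav h1 h2)
      have f4 : ind (y.Adj a' u) = ind (t.Adj a' u) :=
        ind_congr (RP_adj hyt haw haz huw huz)
      have f5 : ind (y.Adj a' v) = ind (t.Adj a' v) :=
        ind_congr (RP_adj hyt haw haz hvw hvz)
      rw [e1, e2, e3, e4, e5]
      omega
  refine ⟨g, RP_of (fun a' => (hdeg a').symm) hA, RP_of (fun a' => ?_) goff⟩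
  rw [hdeg a', hxy.1 a', hyt.1 a']

theorem ind_inj {p q : Prop} (h : ind p = ind q) : p ↔ q := by
  unfold ind at h
  by_cases hp : p <;> by_cases hq : q <;> simp_all

/-- Trivial intersection of the two pair fibres on the states whose block does not contain
exactly two edges. -/
theorem odd_unique {u v w z : V} (h : Dist4 u v w z) {x y : SimpleGraph V}
    (h1 : RP u v x y) (h2 : RP w z x y) (hs : blockSum u v w z x ≠ 2) : x = y := by
  obtain ⟨huv, huw, huz, hvw, hvz, hwz⟩ := h
  have c1 := RP_pair_sum huv h1 huw.symm hvw.symm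
  have c2 := RP_pair_sum huv h1 huz.symm hvz.symm
  have r1 := RP_pair_sum hwz h2 huw huz
  have r2 := RP_pair_sum hwz h2 hvw hvz
  rw [blockSum_eq] at hs
  rw [ind_adj_comm x w u, ind_adj_comm x w v, ind_adj_comm y w u, ind_adj_comm y w v] at c1
  rw [ind_adj_comm x z u, ind_adj_comm x z v, ind_adj_comm y z u, ind_adj_comm y z v] at c2
  obtain ⟨e1, e2, e3, e4⟩ := block_unique _ _ _ _ _ _ _ _ (ind_le_one _) (ind_le_one _)
    (ind_le_one _) (ind_le_one _) (ind_le_one _) (ind_le_one _) (ind_le_one _) (ind_le_one _)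
    r1 r2 c1 c2 hs
  have k1 := ind_inj e1
  have k2 := ind_inj e2
  have k3 := ind_inj e3
  have k4 := ind_inj e4
  ext a b
  by_cases hp : a ≠ u ∧ a ≠ v ∧ b ≠ u ∧ b ≠ v
  · exact RP_adj h1 hp.1 hp.2.1 hp.2.2.1 hp.2.2.2
  by_cases hq : a ≠ w ∧ a ≠ z ∧ b ≠ w ∧ b ≠ z
  · exact RP_adj h2 hq.1 hq.2.1 hq.2.2.1 hq.2.2.2
  by_cases hau : a = u
  · subst hau
    by_cases hbw : b = w
    · subst hbw; exact k1
    by_cases hbz : b = z
    · subst hbz; exact k2
    exact absurd ⟨huw, huz, hbw, hbz⟩ hq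
  by_cases hav : a = v
  · subst hav
    by_cases hbw : b = w
    · subst hbw; exact k3
    by_cases hbz : b = z
    · subst hbz; exact k4
    exact absurd ⟨hvw, hvz, hbw, hbz⟩ hq
  by_cases hbu : b = u
  · subst hbu
    rw [x.adj_comm, y.adj_comm]
    by_cases haw : a = w
    · subst haw; exact k1
    by_cases haz : a = z
    · subst haz; exact k2
    exact absurd ⟨haw, haz, huw, huz⟩ hq
  by_cases hbv : b = v
  · subst hbv
    rw [x.adj_comm, y.adj_comm]
    by_cases haw : a = w
    · subst haw; exact k3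
    by_cases haz : a = z
    · subst haz; exact k4
    exact absurd ⟨haw, haz, hvw, hvz⟩ hq
  exact absurd ⟨hau, hav, hbu, hbv⟩ hp

end Vale.Agent.H90
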